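import Vale.Agent.P235.K5.H838.Contract

set_option linter.all false

/-!
# P235, line K5, Theorem N, row [TREE]: the contraction along the whole tree (helper669)
-/

namespace Vale.Agent.P235.K5.H669

open Finset Vale.Agent.P235.K5.H838

/-- A rooted tree of nodes with adhesions `S t`; `W t` = the vertices below `t`. -/
structure Nodes (T V : Type*) (d : V → V → ℝ) where
  par : T → T
  root : T → Prop
  rk : T → ℕ
  rk_par : ∀ t, ¬ root t → rk (par t) < rk t
  S : T → Finset V
  W : T → Set V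
  S_ne : ∀ t, ¬ root t → (S t).Nonempty
  S_sub : ∀ t, (S t : Set V) ⊆ W t
  W_par : ∀ t, ¬ root t → W t ⊆ W (par t)
  sep : ∀ t, ¬ root t → ∀ v ∈ W t, ∀ s ∈ S (par t), ∃ a ∈ S t, d v s = d v a + d a s

namespace Nodes

variable {T V : Type*} {d : V → V → ℝ} (D : Nodes T V d)

open Classical in
/-- the contracted metrics on the adhesions -/
noncomputable def rho (t : T) : V → V → ℝ :=
  if h : D.root t then fun _ _ => 0 else rT d (D.S (D.par t)) (rho (D.par t))
termination_by D.rk t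
decreasing_by exact D.rk_par t h

theorem rho_root {t : T} (h : D.root t) : D.rho t = fun _ _ => 0 := by
  rw [rho, dif_pos h]

theorem rho_par {t : T} (h : ¬ D.root t) :
    D.rho t = rT d (D.S (D.par t)) (D.rho (D.par t)) := by
  rw [rho, dif_neg h]

/-- the contracted metric below `t` -/
noncomputable def EE (t : T) (p q : V) : ℝ := rT d (D.S t) (D.rho t) p q

/-- the contracted distance to `a ∈ S t` -/
noncomputable def X (t : T) (a v : V) : ℝ := XX d (D.S t) (D.rho t) a v

/-- the distance to the adhesion -/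
noncomputable def F (t : T) (v : V) : ℝ := dS d (D.S t) v

theorem rho_eq {t : T} (h : ¬ D.root t) : D.rho t = D.EE (D.par t) := D.rho_par h

variable {D}

theorem sub (hd : PM d) (t : T) : Sub d (D.S t) (D.rho t) := by
  by_cases h : D.root t
  · rw [D.rho_root h]
    exact ⟨fun _ _ => rfl, fun _ _ _ _ => rfl, fun _ _ _ _ _ _ => by norm_num,
      fun s _ s' _ => hd.nonneg s s'⟩
  · rw [D.rho_par h]
    exact rT_sub hd (D.S t)

theorem EE_pm (t : T) : PM (D.EE t) := rT_pm

theorem EE_nonneg (t : T) (p q : V) : 0 ≤ D.EE t p q := rT_nonneg p q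

theorem EE_le (hd : PM d) (t : T) (p q : V) : D.EE t p q ≤ d p q := rT_le hd p q

theorem EE_mem (hd : PM d) (t : T) {p q : V} (hp : p ∈ D.S t) (hq : q ∈ D.S t) :
    D.EE t p q = D.rho t p q := rT_mem hd (sub hd t) hp hq

/-- **(point)** -/
theorem EE_le_X (hd : PM d) (t : T) {z a : V} (ha : a ∈ D.S t) : D.EE t z a ≤ D.X t a z := by
  obtain ⟨s, hs, h⟩ := exists_rT (d := d) (ρ := D.rho t) (⟨a, ha⟩ : (D.S t).Nonempty) z a
  unfold EE
  rw [h, XX_mem hd (sub hd t) hs ha]
  have h1 := XX_capture hd (sub hd t) hs ha z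
  rw [(sub hd t).symm a ha s hs]
  exact h1

theorem X_nonneg (hd : PM d) (t : T) {a : V} (ha : a ∈ D.S t) (z : V) : 0 ≤ D.X t a z :=
  XX_nonneg hd (sub hd t) ha z

theorem X_le (hd : PM d) (t : T) {a : V} (ha : a ∈ D.S t) (z : V) : D.X t a z ≤ d z a := by
  have h := XX_le (d := d) (ρ := D.rho t) ha a z
  rw [(sub hd t).self a ha, add_zero] at h
  exact h

theorem F_le_X (hd : PM d) (t : T) {a : V} (ha : a ∈ D.S t) (z : V) : D.F t z ≤ D.X t a z :=
  dS_le_XX (sub hd t) ha z

/-- `b` is an ancestor of `t` (or `b = t`) -/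
inductive Anc (D : Nodes T V d) (b : T) : T → Prop
  | refl : Anc D b b
  | step {t : T} : ¬ D.root t → Anc D b (D.par t) → Anc D b t

theorem Anc.trans {a b c : T} (h1 : Anc D a b) (h2 : Anc D b c) : Anc D a c := by
  induction h2 with
  | refl => exact h1
  | step h3 _ ih => exact Anc.step h3 ih

theorem Anc.rk_le {a b : T} (h : Anc D a b) : D.rk a ≤ D.rk b := by
  induction h with
  | refl => exact le_rfl
  | step h1 _ ih => exact ih.trans (D.rk_par _ h1).le

theorem Anc.W {a b : T} (h : Anc D a b) : D.W b ⊆ D.W a := by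
  induction h with
  | refl => exact subset_rfl
  | step h1 _ ih => exact (D.W_par _ h1).trans ih

/-- `g` is computed through `S t` at `v` -/
def Thru (D : Nodes T V d) (t : T) (g : V → ℝ) (v : V) : Prop :=
  (∃ a ∈ D.S t, g v = d v a + g a) ∧ ∀ a ∈ D.S t, g v ≤ d v a + g a

/-- a function of the distances to the adhesion `S b` : a minimum of `d v s + c s` over `S b` -/
structure Reg (D : Nodes T V d) (b : T) (g : V → ℝ) : Prop where
  /-- 1-Lipschitz for the contracted metric of `b` -/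
  lipE : ∀ p q, |g p - g q| ≤ D.EE b p q
  lip : ∀ p q, g p ≤ d p q + g q
  /-- attained -/
  att : ∀ v, ∃ s ∈ D.S b, ∃ c : ℝ, g v = d v s + c ∧ ∀ w, g w ≤ d w s + c

theorem Reg.lip' {b : T} {g : V → ℝ} (hd : PM d) (h : Reg D b g) (p q : V) :
    |g p - g q| ≤ d p q := by
  have h1 := h.lip p q
  have h2 := h.lip q p
  rw [hd.symm q p] at h2
  rw [abs_le]
  constructor <;> linarith

theorem reg_X (hd : PM d) (b : T) (hne : (D.S b).Nonempty) {s : V} (hs : s ∈ D.S b) :
    Reg D b (D.X b s) where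
  lipE p q := le_rT hs p q
  lip p q := by
    have := (abs_le.1 (XX_lip (S := D.S b) (ρ := D.rho b) hd s p q)).2
    unfold X
    linarith
  att v := by
    obtain ⟨a, ha, h⟩ := exists_XX (d := d) (ρ := D.rho b) hne s v
    exact ⟨a, ha, D.rho b a s, h, fun w => XX_le ha s w⟩

theorem reg_F (hd : PM d) (b : T) (hne : (D.S b).Nonempty) : Reg D b (D.F b) where
  lipE p q := dS_le_rT (sub hd b) p q
  lip p q := by
    have := (abs_le.1 (dS_lip (S := D.S b) hd p q)).2
    unfold F
    linarith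
  att v := by
    obtain ⟨a, ha, h⟩ := exists_dS (d := d) hne v
    refine ⟨a, ha, 0, ?_, fun w => ?_⟩
    · rw [add_zero]; exact h
    · rw [add_zero]; exact dS_le ha w

/-- separation from all the ancestors -/
theorem sep_anc (hd : PM d) {b t : T} (h : Anc D b t) : b ≠ t → ∀ v ∈ D.W t, ∀ s ∈ D.S b,
    ∃ a ∈ D.S t, d v s = d v a + d a s := by
  induction h with
  | refl => intro hne; exact absurd rfl hne
  | @step t h1 h2 ih =>
    intro _ v hv s hs
    by_cases hb : b = D.par t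
    · subst hb
      exact D.sep t h1 v hv s hs
    · obtain ⟨a, ha, e1⟩ := ih hb v (D.W_par t h1 hv) s hs
      obtain ⟨a', ha', e2⟩ := D.sep t h1 v hv a ha
      refine ⟨a', ha', le_antisymm (hd.tri _ _ _) ?_⟩
      have := hd.tri a' a s
      linarith

theorem Reg.thru (hd : PM d) {b : T} {g : V → ℝ} (hg : Reg D b g) {t : T} (h : Anc D b t)
    (hne : b ≠ t) {v : V} (hv : v ∈ D.W t) : Thru D t g v := by
  refine ⟨?_, fun a _ => hg.lip v a⟩
  obtain ⟨s, hs, c, h1, h2⟩ := hg.att v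
  obtain ⟨a, ha, h3⟩ := sep_anc hd h hne v hv s hs
  refine ⟨a, ha, le_antisymm (hg.lip v a) ?_⟩
  have := h2 a
  linarith

/-- **The induction**: the function `g` of an ancestor is 1-Lipschitz for the contracted metric
of every node below it. -/
theorem Reg.lipE_anc (hd : PM d) {b : T} {g : V → ℝ} (hg : Reg D b g) {t : T} (h : Anc D b t) :
    ∀ p ∈ D.W t, ∀ q ∈ D.W t, |g p - g q| ≤ D.EE t p q := by
  induction h with
  | refl => intro p _ q _; exact hg.lipE p q
  | @step t h1 h2 ih =>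
    intro p hp q hq
    have hne : b ≠ t := by
      rintro rfl
      have h3 := h2.rk_le
      have h4 := D.rk_par _ h1
      omega
    refine step_rT (sub hd t) ?_ (hg.thru hd (Anc.step h1 h2) hne hp)
      (hg.thru hd (Anc.step h1 h2) hne hq)
    intro a ha a' ha'
    rw [D.rho_eq h1]
    exact ih a (D.W_par t h1 (D.S_sub t (Finset.mem_coe.2 ha))) a'
      (D.W_par t h1 (D.S_sub t (Finset.mem_coe.2 ha')))

theorem Reg.var (hd : PM d) {b : T} {g : V → ℝ} (hg : Reg D b g) {t : T} (h : Anc D b t)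
    {a a' : V} (ha : a ∈ D.S t) (ha' : a' ∈ D.S t) : |g a - g a'| ≤ D.rho t a a' := by
  rw [← EE_mem hd t ha ha']
  exact hg.lipE_anc hd h a (D.S_sub t (Finset.mem_coe.2 ha)) a' (D.S_sub t (Finset.mem_coe.2 ha'))

/-- `|g z - g a| ≤ X t a z` for the functions of the ancestors -/
theorem Reg.point (hd : PM d) {b : T} {g : V → ℝ} (hg : Reg D b g) {t : T} (h : Anc D b t)
    {z a : V} (hz : z ∈ D.W t) (ha : a ∈ D.S t) : |g z - g a| ≤ D.X t a z :=
  (hg.lipE_anc hd h z hz a (D.S_sub t (Finset.mem_coe.2 ha))).trans (EE_le_X hd t ha)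

/-- **(mono)**, one step -/
theorem EE_par (hd : PM d) {t : T} (h : ¬ D.root t) (hne : (D.S (D.par t)).Nonempty) {p q : V}
    (hp : p ∈ D.W t) (hq : q ∈ D.W t) : D.EE (D.par t) p q ≤ D.EE t p q := by
  obtain ⟨s, hs, e⟩ := exists_rT (d := d) (ρ := D.rho (D.par t)) hne p q
  unfold EE at *
  rw [e]
  exact (reg_X hd (D.par t) hne hs).lipE_anc hd (Anc.step h Anc.refl) p hp q hq

theorem EE_empty {t : T} (h : ¬ (D.S t).Nonempty) (p q : V) : D.EE t p q = 0 := rT_empty h p q

/-- **(mono)** -/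
theorem EE_mono (hd : PM d) {b t : T} (h : Anc D b t) {p q : V} (hp : p ∈ D.W t)
    (hq : q ∈ D.W t) : D.EE b p q ≤ D.EE t p q := by
  by_cases hne : (D.S b).Nonempty
  · obtain ⟨s, hs, e⟩ := exists_rT (d := d) (ρ := D.rho b) hne p q
    have h1 := (reg_X hd b hne hs).lipE_anc hd h p hp q hq
    have h2 : D.EE b p q = |D.X b s p - D.X b s q| := e
    rw [h2]
    exact h1
  · rw [EE_empty hne]
    exact EE_nonneg t p q

/-- **(r)**: the hypothesis `hr` of [FRESH] with `r := F b` -/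
theorem F_le (hd : PM d) {b t : T} (hne : (D.S b).Nonempty) (h : Anc D b t) {z a : V}
    (hz : z ∈ D.W t) (ha : a ∈ D.S t) : D.F b z ≤ D.F b a + D.X t a z := by
  have h1 := (reg_F hd b hne).point hd h hz ha
  have h2 := le_abs_self (D.F b z - D.F b a)
  linarith

theorem F_mem (hd : PM d) {b : T} {a : V} (ha : a ∈ D.S b) : D.F b a = 0 := dS_mem hd ha

theorem F_nonneg (hd : PM d) (b : T) (v : V) : 0 ≤ D.F b v := dS_nonneg hd v

theorem F_le_d {b : T} {a : V} (ha : a ∈ D.S b) (v : V) : D.F b v ≤ d v a := dS_le ha v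

open Classical in
/-- **(dt)**: the node-dependent metric on all pairs -/
noncomputable def dt (D : Nodes T V d) (M : ℝ) (t : T) (p q : V) : ℝ :=
  if p ∈ D.W t ∧ q ∈ D.W t then D.EE t p q else M

theorem dt_of_mem {M : ℝ} {t : T} {p q : V} (hp : p ∈ D.W t) (hq : q ∈ D.W t) :
    D.dt M t p q = D.EE t p q := if_pos ⟨hp, hq⟩

theorem dt_nonneg {M : ℝ} (hM : 0 ≤ M) (t : T) (p q : V) : 0 ≤ D.dt M t p q := by
  unfold dt
  split_ifs
  · exact EE_nonneg t p q
  · exact hM

theorem dt_par (hd : PM d) {M : ℝ} (hM : ∀ p q, d p q ≤ M) {t : T} (h : ¬ D.root t) (p q : V) :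
    D.dt M (D.par t) p q ≤ D.dt M t p q := by
  by_cases h1 : p ∈ D.W t ∧ q ∈ D.W t
  · rw [dt_of_mem h1.1 h1.2, dt_of_mem (D.W_par t h h1.1) (D.W_par t h h1.2)]
    exact EE_mono hd (Anc.step h Anc.refl) h1.1 h1.2
  · have h2 : D.dt M t p q = M := if_neg h1
    rw [h2]
    unfold dt
    split_ifs
    · exact (EE_le hd _ p q).trans (hM p q)
    · exact le_rfl

theorem dt_le (hd : PM d) {M : ℝ} {t : T} {p q : V} (hp : p ∈ D.W t) (hq : q ∈ D.W t) :
    D.dt M t p q ≤ d p q := by
  rw [dt_of_mem hp hq]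
  exact EE_le hd t p q

/-- a function which is 1-Lipschitz below `t` for the contracted metric, and 1-Lipschitz for `d` -/
theorem lip_dt {M : ℝ} (hM : ∀ p q, d p q ≤ M) {t : T} {f : V → ℝ}
    (h1 : ∀ p ∈ D.W t, ∀ q ∈ D.W t, |f p - f q| ≤ D.EE t p q) (h2 : ∀ p q, |f p - f q| ≤ d p q)
    (p q : V) : |f p - f q| ≤ D.dt M t p q := by
  unfold dt
  split_ifs with h
  · exact h1 p h.1 q h.2
  · exact (h2 p q).trans (hM p q)

end Nodes

end Vale.Agent.P235.K5.H669
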